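import Vale.Agent.P212H52.Br

namespace Vale.Agent.Results.P212.AHomotopy

open Vale.Agent.P212 Vale.Agent.P212Z

/-- (1) Evaluations of Kasparov `(A, C([0,1]))`-modules are well defined, and unitary equivalences
and operator homotopies are homotopies. (2) The coarse assembly map, on Kasparov's groups of
cycles modulo homotopy, is not rationally injective. -/
theorem result :
    (∀ (A : Type) [NonUnitalCStarAlgebra A], P212T.EvalWellDefined A ∧
      ∀ a b : Kas.Cyc A, a.Sim b → P212T.Htpy a b) ∧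
    ∃ (X : Type) (_ : MetricSpace X) (_ : BddGeometry X) (_ : UnifDiscrete X),
    (∃ (H A : Type) (_ : NormedAddCommGroup H) (_ : InnerProductSpace ℂ H)
      (_ : CompleteSpace H) (_ : NonUnitalCStarAlgebra A) (b : HilbertBasis (X × ℕ) ℂ H)
      (i : P212T.Op H H → A), IsMaxRoe b i) ∧
    (∃ (H A : Type) (_ : NormedAddCommGroup H) (_ : InnerProductSpace ℂ H)
      (_ : CompleteSpace H) (_ : NonUnitalCStarAlgebra A) (b : HilbertBasis (X × ℕ) ℂ H)
      (i : P212T.Op H H → A), IsReducedRoe b i) ∧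
    ∀ (H A : Type) [NormedAddCommGroup H] [InnerProductSpace ℂ H] [CompleteSpace H]
      [NonUnitalCStarAlgebra A] (b : HilbertBasis (X × ℕ) ℂ H) (i : P212T.Op H H → A),
      IsMaxRoe b i ∨ IsReducedRoe b i →
      ∃ μ : P212T.KX0 X →+ KC A, P212T.IsAssembly b i μ ∧
        (∀ μ', P212T.IsAssembly b i μ' → μ' = μ) ∧ ¬ RatInj μ ∧ BigKer μ :=
  P212T.top

end Vale.Agent.Results.P212.AHomotopy
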